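import Vale.Agent.P189.H741.Main0

set_option autoImplicit false

open Function Monoid
open scoped Pointwise

namespace Vale.Agent.P189.R

open Vale.Agent.P189.M Vale.Agent.P189.Grp

/-- `G` is the amalgam of `A` and `⟨t⟩ × H` over the infinite cyclic group `⟨t⟩`. -/
structure Amal {A H G : Type} [Group A] [Group H] [Group G] (t : A) (f : A →* G) (j : H →* G) :
    Prop where
  finj : Injective f
  comm : ∀ h : H, f t * j h = j h * f t
  top : Subgroup.closure ((f.range : Set G) ∪ (j.range : Set G)) = ⊤
  split : ∃ B : Subgroup G, NormalForm f.range B ∧ f.range ⊓ B = Subgroup.zpowers (f t) ∧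
    f.range ⊔ B = ⊤
  lift : ∀ (K : Type) [Group K] (a : A →* K) (b : H →* K), (∀ h, a t * b h = b h * a t) →
    ∃ φ : G →* K, φ.comp f = a ∧ φ.comp j = b

namespace Amal

variable {A H G : Type} [Group A] [Group H] [Group G] {t : A} {f : A →* G} {j : H →* G}

theorem retrA (h : Amal t f j) : ∃ ρ : G →* A, ρ.comp f = MonoidHom.id A := by
  obtain ⟨ρ, h1, -⟩ := h.lift A (MonoidHom.id A) 1 (fun _ => by simp)
  exact ⟨ρ, h1⟩

theorem retrH (h : Amal t f j) : ∃ r : G →* H, r.comp j = MonoidHom.id H := by
  obtain ⟨r, -, h1⟩ := h.lift H 1 (MonoidHom.id H) (fun _ => by simp)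
  exact ⟨r, h1⟩

theorem surj (h : Amal t f j) : Surjective (Coprod.lift f j) := by
  rw [← MonoidHom.range_eq_top, eq_top_iff, ← h.top, Subgroup.closure_le]
  rintro _ (⟨a, rfl⟩ | ⟨b, rfl⟩)
  · exact ⟨Coprod.inl a, Coprod.lift_apply_inl f j a⟩
  · exact ⟨Coprod.inr b, Coprod.lift_apply_inr f j b⟩

theorem countable (h : Amal t f j) [Countable A] [Countable H] : Countable G := by
  have h1 : Countable (FreeMonoid (A ⊕ H)) := inferInstanceAs (Countable (List (A ⊕ H)))
  have h2 : Countable (Coprod A H) := (Coprod.mk_surjective (M := A) (N := H)).countable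
  exact h.surj.countable

theorem fg (h : Amal t f j) (hA : Group.FG A) (hH : Group.FG H) : Group.FG G := by
  have h1 : f.range.FG := (Group.fg_iff_subgroup_fg _).1 (Group.fg_range f)
  have h2 : j.range.FG := (Group.fg_iff_subgroup_fg _).1 (Group.fg_range j)
  have h3 : f.range ⊔ j.range = ⊤ := by
    rw [← h.top, Subgroup.closure_union, Subgroup.closure_eq, Subgroup.closure_eq]
  exact ⟨h3 ▸ h1.sup h2⟩

/-- Two homomorphisms that agree on both factors are equal. -/
theorem hom_ext (h : Amal t f j) {K : Type} [Group K] {φ ψ : G →* K} (h1 : φ.comp f = ψ.comp f)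
    (h2 : φ.comp j = ψ.comp j) : φ = ψ := by
  refine (MonoidHom.cancel_right h.surj).1 (Coprod.hom_ext ?_ ?_)
  · rw [MonoidHom.comp_assoc, MonoidHom.comp_assoc, Coprod.lift_comp_inl]
    exact h1
  · rw [MonoidHom.comp_assoc, MonoidHom.comp_assoc, Coprod.lift_comp_inr]
    exact h2

theorem fp (h : Amal t f j) (hA : Group.IsFinitelyPresented A) (hH : Group.IsFinitelyPresented H) :
    Group.IsFinitelyPresented G := by
  obtain ⟨n, φ, hφ, -⟩ := hH.out
  let S : Set (Coprod A H) := Set.range fun i : Fin n =>
    Coprod.inl t * Coprod.inr (φ (FreeGroup.of i)) * (Coprod.inl t)⁻¹ *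
      (Coprod.inr (φ (FreeGroup.of i)))⁻¹
  let N : Subgroup (Coprod A H) := Subgroup.normalClosure S
  have hN : N.IsFinitelyNormallyGenerated := ⟨S, Set.finite_range _, rfl⟩
  have hQ : Group.IsFinitelyPresented (Coprod A H ⧸ N) := Group.IsFinitelyPresented.quotient N hN
  let m : Coprod A H →* Coprod A H ⧸ N := QuotientGroup.mk' N
  have hker : N ≤ (Coprod.lift f j).ker := by
    refine Subgroup.normalClosure_le_normal ?_
    rintro _ ⟨i, rfl⟩
    show Coprod.lift f j _ = 1
    rw [map_mul, map_mul, map_mul, map_inv, map_inv, Coprod.lift_apply_inl,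
      Coprod.lift_apply_inr, h.comm, mul_inv_cancel_right, mul_inv_cancel]
  let α : Coprod A H ⧸ N →* G := QuotientGroup.lift N (Coprod.lift f j) hker
  have hcomm : ∀ b : H, m (Coprod.inl t) * m (Coprod.inr b) =
      m (Coprod.inr b) * m (Coprod.inl t) := by
    intro b
    obtain ⟨w, rfl⟩ := hφ b
    have : Commute (m (Coprod.inl t)) (m (Coprod.inr (φ w))) := by
      induction w using FreeGroup.induction_on with
      | C1 => simp
      | of i =>
        have h1 : m (Coprod.inl t * Coprod.inr (φ (FreeGroup.of i)) * (Coprod.inl t)⁻¹ *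
            (Coprod.inr (φ (FreeGroup.of i)))⁻¹) = 1 :=
          (QuotientGroup.eq_one_iff _).2 (Subgroup.subset_normalClosure ⟨i, rfl⟩)
        rw [map_mul, map_mul, map_mul, map_inv, map_inv, mul_inv_eq_one,
          mul_inv_eq_iff_eq_mul] at h1
        exact h1
      | inv_of i hi =>
        rw [map_inv, map_inv, map_inv]
        exact hi.inv_right
      | mul x y hx hy =>
        rw [map_mul, map_mul, map_mul]
        exact hx.mul_right hy
    exact this
  obtain ⟨β, hβ1, hβ2⟩ := h.lift (Coprod A H ⧸ N) (m.comp Coprod.inl) (m.comp Coprod.inr) hcomm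
  have h1 : β.comp α = MonoidHom.id _ := by
    refine QuotientGroup.monoidHom_ext N (Coprod.hom_ext ?_ ?_)
    · ext a
      have := DFunLike.congr_fun hβ1 a
      exact this
    · ext a
      have := DFunLike.congr_fun hβ2 a
      exact this
  have h2 : α.comp β = MonoidHom.id _ := by
    refine h.hom_ext ?_ ?_
    · rw [MonoidHom.comp_assoc, hβ1]
      ext a
      rfl
    · rw [MonoidHom.comp_assoc, hβ2]
      ext a
      rfl
  exact Group.IsFinitelyPresented.equiv (MonoidHom.toMulEquiv α β h1 h2)

end Amal

section Model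

variable (A H : Type) [Group A] [Group H]

/-- The two factors. -/
def FamB : Bool → Type
  | true => A
  | false => H × Multiplicative ℤ

instance instGroupFamB : ∀ i, Group (FamB A H i)
  | true => inferInstanceAs (Group A)
  | false => inferInstanceAs (Group (H × Multiplicative ℤ))

variable {A} (t : A)

/-- The embeddings of the infinite cyclic group. -/
def phiB : ∀ i, Multiplicative ℤ →* FamB A H i
  | true => zpowersHom A t
  | false => MonoidHom.inr H (Multiplicative ℤ)

variable {H}

theorem zpowersHom_inj {t : A} (ht : ∀ n : ℕ, t ^ n = 1 → n = 0) :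
    Injective (zpowersHom A t) := by
  rw [injective_iff_map_eq_one]
  intro a ha
  obtain ⟨n, rfl⟩ := Multiplicative.ofAdd.surjective a
  rw [zpowersHom_apply, toAdd_ofAdd] at ha
  have h1 : t ^ n.natAbs = 1 := by
    rcases Int.natAbs_eq n with h | h
    · rw [h, zpow_natCast] at ha
      exact ha
    · rw [h, zpow_neg, zpow_natCast, inv_eq_one] at ha
      exact ha
  have h2 := ht _ h1
  have h3 : n = 0 := Int.natAbs_eq_zero.1 h2
  rw [h3]
  rfl

theorem phiB_inj {t : A} (ht : ∀ n : ℕ, t ^ n = 1 → n = 0) : ∀ i, Injective (phiB H t i)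
  | true => zpowersHom_inj ht
  | false => fun _ _ h => (Prod.ext_iff.1 h).2

end Model

theorem exists_amal (A H : Type) [Group A] [Group H] (t : A) (ht : ∀ n : ℕ, t ^ n = 1 → n = 0) :
    ∃ (G : Type) (_ : Group G) (f : A →* G) (j : H →* G), Amal t f j := by
  classical
  let oT : A →* PushoutI (phiB H t) := PushoutI.of (φ := phiB H t) true
  let oF : H × Multiplicative ℤ →* PushoutI (phiB H t) := PushoutI.of (φ := phiB H t) false
  let jH : H →* PushoutI (phiB H t) := oF.comp (MonoidHom.inl H (Multiplicative ℤ))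
  have hbase : ∀ n : ℤ, PushoutI.base (phiB H t) (Multiplicative.ofAdd n) = oT t ^ n := by
    intro n
    rw [← PushoutI.of_apply_eq_base (phiB H t) true, ← map_zpow]
    rfl
  have hbaseF : ∀ z : Multiplicative ℤ, PushoutI.base (phiB H t) z = oF (1, z) := by
    intro z
    rw [← PushoutI.of_apply_eq_base (phiB H t) false]
    rfl
  have htF : oT t = oF (1, Multiplicative.ofAdd 1) := by
    rw [← hbaseF, hbase, zpow_one]
  have hrange : (PushoutI.base (phiB H t)).range = Subgroup.zpowers (oT t) := by
    ext x
    constructor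
    · rintro ⟨z, rfl⟩
      obtain ⟨n, rfl⟩ := Multiplicative.ofAdd.surjective z
      exact ⟨n, (hbase n).symm⟩
    · rintro ⟨n, rfl⟩
      exact ⟨Multiplicative.ofAdd n, hbase n⟩
  have hF : ∀ x : H × Multiplicative ℤ, oF x = jH x.1 * PushoutI.base (phiB H t) x.2 := by
    intro x
    rw [hbaseF]
    show oF x = oF (x.1, 1) * oF (1, x.2)
    rw [← map_mul]
    simp
  have htop : Subgroup.closure ((oT.range : Set (PushoutI (phiB H t))) ∪
      (jH.range : Set (PushoutI (phiB H t)))) = ⊤ := by
    rw [eq_top_iff]
    intro x _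
    have hT : ∀ a, oT a ∈ Subgroup.closure ((oT.range : Set (PushoutI (phiB H t))) ∪
      (jH.range : Set (PushoutI (phiB H t)))) := fun a =>
      Subgroup.subset_closure (Or.inl ⟨a, rfl⟩)
    have hB : ∀ z, PushoutI.base (phiB H t) z ∈
        Subgroup.closure ((oT.range : Set (PushoutI (phiB H t))) ∪
          (jH.range : Set (PushoutI (phiB H t)))) := by
      intro z
      obtain ⟨n, rfl⟩ := Multiplicative.ofAdd.surjective z
      rw [hbase]
      exact Subgroup.zpow_mem _ (hT t) n
    induction x using PushoutI.induction_on with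
    | of i g =>
      cases i with
      | true => exact hT g
      | false =>
        have h1 := hF g
        show oF g ∈ _
        rw [h1]
        exact mul_mem (Subgroup.subset_closure (Or.inr ⟨g.1, rfl⟩)) (hB _)
    | base h => exact hB h
    | mul x y hx hy => exact mul_mem (hx trivial) (hy trivial)
  refine ⟨PushoutI (phiB H t), inferInstance, oT, jH, ?_, ?_, htop, ?_, ?_⟩
  · exact PushoutI.of_injective (φ := phiB H t) (phiB_inj ht) true
  · intro h
    rw [htF]
    show oF (1, Multiplicative.ofAdd 1) * oF (h, 1) = oF (h, 1) * oF (1, Multiplicative.ofAdd 1)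
    rw [← map_mul, ← map_mul]
    simp
  · refine ⟨oF.range, pushout_nf (phiB_inj ht) (i := true) (j := false) (by decide), ?_, ?_⟩
    · rw [← hrange]
      exact PushoutI.inf_of_range_eq_base_range (φ := phiB H t) (phiB_inj ht) (by decide)
    · rw [eq_top_iff, ← htop, Subgroup.closure_le]
      rintro _ (⟨a, rfl⟩ | ⟨b, rfl⟩)
      · exact Subgroup.mem_sup_left ⟨a, rfl⟩
      · exact Subgroup.mem_sup_right ⟨(b, 1), rfl⟩
  · intro K _ a b hab
    let k : Multiplicative ℤ →* K := a.comp (zpowersHom A t)
    let g : (H × Multiplicative ℤ) →* K := MonoidHom.noncommCoprod b k (by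
      intro m n
      have hc : Commute (a t) (b m) := hab m
      show Commute (b m) (a (zpowersHom A t n))
      rw [zpowersHom_apply, map_zpow]
      exact (hc.zpow_left _).symm)
    let fam : ∀ i, FamB A H i →* K := fun i => match i with
      | true => a
      | false => g
    have hfam : ∀ i, (fam i).comp (phiB H t i) = k := by
      intro i
      cases i with
      | true => rfl
      | false =>
        ext
        show g (1, _) = _
        simp [g]
    refine ⟨PushoutI.lift fam k hfam, ?_, ?_⟩
    · ext x
      exact PushoutI.lift_of (φ := phiB H t) fam k hfam (i := true) x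
    · ext x
      refine (PushoutI.lift_of (φ := phiB H t) fam k hfam (i := false) (x, 1)).trans ?_
      show g (x, 1) = b x
      simp [g]

end Vale.Agent.P189.R
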