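import Vale.Agent.P189.H741.Main0

set_option autoImplicit false

open MeasureTheory
open scoped ENNReal Pointwise symmDiff

namespace Vale.Agent.P189.R

open Vale.Agent.P189.M RelCostAux

section Pull

variable {A G X : Type} [Group A] [Group G] [MulAction G X] [MulAction A X]

theorem conn_pull (f : A →* G) (hact : ∀ (a : A) (x : X), f a • x = a • x)
    (S : Set A) (D : G → Set X) (hD : ∀ g, (D g).Nonempty → g ∈ f.range) {x y : X}
    (h : Conn (fun g => fl X (f '' S) g ∪ D g) x y) :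
    Conn (fun a => fl X S a ∪ D (f a)) x y := by
  refine Relation.EqvGen.mono ?_ _ _ h
  rintro u v ⟨g, hg | hg, rfl⟩
  · obtain ⟨a, ha, rfl⟩ := hg
    exact ⟨a, Or.inl ha, hact a u⟩
  · obtain ⟨a, rfl⟩ := hD g ⟨u, hg⟩
    exact ⟨a, Or.inr hg, hact a u⟩

end Pull

section Red

variable {A G X ι : Type} [Group A] [Countable A] [Group G] [Countable G] [MeasurableSpace X]
    [StandardBorelSpace X] (μ : Measure X) [IsProbabilityMeasure μ] [MulAction G X]
    [MeasurableConstSMul G X] [SMulInvariantMeasure G X μ] [MulAction A X]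
    [MeasurableConstSMul A X] [SMulInvariantMeasure A X μ]
    (hfree : ∀ (g : G) (x : X), g • x = x → g = 1)
    (f : A →* G) (hf : Function.Injective f) (hact : ∀ (a : A) (x : X), f a • x = a • x)
    (B : Subgroup G) {p q : ι → A} {t : A} (hA : MultiData A ι p q t)
    (hnf : NormalForm f.range B) (hinf : f.range ⊓ B = Subgroup.zpowers (f t))
    (hsup : f.range ⊔ B = ⊤)

include hfree hf hact hA hnf hinf hsup

/-- Reduction to the factor `A`. -/
theorem reduce_factor (s : Finset ι) (D : G → Set X) (hD : ∀ g, MeasurableSet (D g))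
    (hgen : ∀ (x : X) (g : G), Conn D x (g • x)) (ε : ℝ≥0∞) (hε : 0 < ε) :
    ∃ DA : A → Set X, (∀ g, MeasurableSet (DA g)) ∧
      (∀ (x : X) (g : A), Conn (fun h =>
        fl X (base p q t (s : Set ι) ∪ (sub p q t (s : Set ι)ᶜ : Set A)) h ∪ DA h) x (g • x)) ∧
      1 + dcost μ DA ≤ dcost μ D + ε := by
  classical
  have htinf : ∀ n : ℕ, f t ^ n = 1 → n = 0 := by
    intro n hn
    refine hA.tinf n (hf ?_)
    rw [map_pow, hn, map_one]
  have : Infinite (Subgroup.zpowers (f t)) := by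
    refine Infinite.of_injective (fun n : ℕ => (⟨f t ^ n, Subgroup.npow_mem_zpowers (f t) n⟩ :
      Subgroup.zpowers (f t))) ?_
    intro m n h
    have h' : f t ^ m = f t ^ n := congrArg Subtype.val h
    rcases le_total m n with hmn | hmn
    · have : f t ^ (n - m) = 1 := by
        rw [pow_sub _ hmn, ← h', mul_inv_cancel]
      have := htinf _ this
      omega
    · have : f t ^ (m - n) = 1 := by
        rw [pow_sub _ hmn, ← h', mul_inv_cancel]
      have := htinf _ this
      omega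
  have hη : (0 : ℝ≥0∞) < ε / 3 := ENNReal.div_pos hε.ne' (by simp)
  set η := ε / 3 with hηdef
  obtain ⟨D1, hD1, hD1c, hD1cost⟩ := relcost0 μ hfree (Subgroup.zpowers (f t)) D hD hgen η hη
  set S0 : Set A := base p q t (s : Set ι) ∪ (sub p q t (s : Set ι)ᶜ : Set A) with hS0
  set C : Set G := f '' S0 ∪ (B : Set G) with hC
  have htS0 : ∀ a ∈ Subgroup.zpowers t, a ∈ S0 := fun a ha => Or.inl (Or.inl ha)
  have hzp : ∀ g ∈ Subgroup.zpowers (f t), g ∈ f '' S0 := by
    rintro _ ⟨n, rfl⟩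
    exact ⟨t ^ n, htS0 _ ⟨n, rfl⟩, map_zpow f t n⟩
  obtain ⟨D2, hD2, hD2f, -, hD2c, hD2cost⟩ := truncate_set μ hfree C
    (s.image fun i => f (q i)) D1 hD1
    (fun g _ x => by
      refine Conn.mono (fun h y hy => ?_) (hD1c x g)
      rcases hy with hy | hy
      · exact Or.inl (Or.inl (hzp h hy))
      · exact Or.inr hy) η hη
  have htop : Subgroup.closure ((f '' (p '' Set.univ ∪ q '' Set.univ ∪ {t})) ∪ (B : Set G)) =
      ⊤ := by
    rw [Subgroup.closure_union, ← MonoidHom.map_closure, Subgroup.closure_eq]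
    have h1 : Subgroup.closure (p '' Set.univ ∪ q '' Set.univ ∪ {t}) = ⊤ := hA.gen
    rw [h1, ← MonoidHom.range_eq_map, hsup]
  have hD2gen : ∀ (x : X) (g : G), Conn (fun h => fl X C h ∪ D2 h) x (g • x) := by
    intro x g
    refine conn_closure _ _ ?_ (g := g) (by rw [htop]; trivial) x
    rintro g' (⟨a, (⟨j, -, rfl⟩ | ⟨j, -, rfl⟩) | ha, rfl⟩ | hg') y
    · refine Conn.of_mem (D := fun h => fl X C h ∪ D2 h) (Or.inl (Or.inl ⟨p j, ?_, rfl⟩))
      by_cases hj : j ∈ (s : Set ι)
      · exact Or.inl (Or.inr ⟨j, hj, p_mem_Bs j⟩)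
      · exact Or.inr (p_mem_sub hj)
    · by_cases hj : j ∈ (s : Set ι)
      · exact hD2c _ (Finset.mem_image_of_mem (fun i => f (q i)) (Finset.mem_coe.1 hj)) y
      · exact Conn.of_mem (D := fun h => fl X C h ∪ D2 h)
          (Or.inl (Or.inl ⟨q j, Or.inr (q_mem_sub hj), rfl⟩))
    · rw [Set.mem_singleton_iff] at ha
      subst ha
      exact Conn.of_mem (D := fun h => fl X C h ∪ D2 h)
        (Or.inl (Or.inl ⟨a, htS0 _ (Subgroup.mem_zpowers a), rfl⟩))
    · exact Conn.of_mem (D := fun h => fl X C h ∪ D2 h) (Or.inl (Or.inr hg'))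
  obtain ⟨DA, DB, hDA, -, hDAl, -, hDAc, -, hcost⟩ := amalgam2 μ hfree
    f.range B hnf (f '' S0) (B : Set G)
    (fun g hg => by
      obtain ⟨a, -, rfl⟩ := hg
      exact ⟨a, rfl⟩)
    (fun g hg => hg)
    (fun g hg => by rw [hinf] at hg; exact hzp g hg)
    (fun g hg => (Subgroup.mem_inf.1 hg).2) D2 hD2 hD2f
    (fun g _ => by rw [hsup]; trivial) (fun x g _ => hD2gen x g) η hη
  refine ⟨fun a => DA (f a), fun a => hDA (f a), fun x a => ?_, ?_⟩
  · have h1 := hDAc x (f a) ⟨a, rfl⟩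
    rw [hact] at h1
    exact conn_pull f hact S0 DA hDAl h1
  · have h2 : dcost μ (fun a => DA (f a)) ≤ dcost μ DA :=
      ENNReal.tsum_comp_le_tsum_of_injective hf (fun g => μ (DA g))
    calc 1 + dcost μ (fun a => DA (f a)) ≤ 1 + ((dcost μ D1 + η) + η) := by
          gcongr
          exact h2.trans ((le_add_right le_rfl).trans (hcost.trans (by gcongr)))
      _ = (dcost μ D1 + 1) + η + η := by ring
      _ ≤ (dcost μ D + η) + η + η := by gcongr
      _ = dcost μ D + (η + η + η) := by ring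
      _ = dcost μ D + ε := by rw [hηdef, ENNReal.add_thirds]

/-- Reduction to the copies in `s`. -/
theorem reduce_copies (s : Finset ι) (D : G → Set X) (hD : ∀ g, MeasurableSet (D g))
    (hgen : ∀ (x : X) (g : G), Conn D x (g • x)) (ε : ℝ≥0∞) (hε : 0 < ε) :
    ∃ DA : A → Set X, (∀ g, MeasurableSet (DA g)) ∧
      (∀ g, (DA g).Nonempty → g ∈ sub p q t (s : Set ι)) ∧
      (∀ (x : X), ∀ g ∈ sub p q t (s : Set ι),
        Conn (fun h => fl X (base p q t (s : Set ι)) h ∪ DA h) x (g • x)) ∧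
      1 + dcost μ DA ≤ dcost μ D + ε := by
  classical
  have hfreeA : ∀ (a : A) (x : X), a • x = x → a = 1 := by
    intro a x h
    rw [← hact] at h
    exact hf ((hfree _ _ h).trans (map_one f).symm)
  have hdisj : Disjoint (s : Set ι) ((s : Set ι)ᶜ) := disjoint_compl_right
  have hsupA : sub p q t (s : Set ι) ⊔ sub p q t (s : Set ι)ᶜ = ⊤ := by
    rw [sub_union, Set.union_compl_self]
    exact hA.gen
  have hinfA := hA.split_inf _ _ hdisj
  have hη : (0 : ℝ≥0∞) < ε / 3 := ENNReal.div_pos hε.ne' (by simp)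
  set η := ε / 3 with hηdef
  obtain ⟨D1, hD1, hD1c, hD1cost⟩ := reduce_factor μ hfree f hf hact B hA hnf hinf hsup s D hD
    hgen η hη
  set C : Set A := base p q t (s : Set ι) ∪ (sub p q t (s : Set ι)ᶜ : Set A) with hC
  obtain ⟨D2, hD2, hD2f, -, hD2c, hD2cost⟩ := truncate_set μ hfreeA C (s.image q) D1 hD1
    (fun g _ x => hD1c x g) η hη
  have hD2gen : ∀ (x : X) (g : A), Conn (fun h => fl X C h ∪ D2 h) x (g • x) := by
    intro x g
    have hg : g ∈ sub p q t Set.univ := by rw [hA.gen]; trivial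
    refine conn_sub (J := Set.univ) ?_ ?_ ?_ hg x
    · intro j _ y
      refine Conn.of_mem (D := fun h => fl X C h ∪ D2 h) (Or.inl ?_)
      by_cases hj : j ∈ (s : Set ι)
      · exact Or.inl (Or.inr ⟨j, hj, p_mem_Bs j⟩)
      · exact Or.inr (p_mem_sub hj)
    · intro j _ y
      by_cases hj : j ∈ (s : Set ι)
      · exact hD2c _ (Finset.mem_image_of_mem q (Finset.mem_coe.1 hj)) y
      · exact Conn.of_mem (D := fun h => fl X C h ∪ D2 h) (Or.inl (Or.inr (q_mem_sub hj)))
    · intro y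
      exact Conn.of_mem (D := fun h => fl X C h ∪ D2 h)
        (Or.inl (Or.inl (Or.inl (Subgroup.mem_zpowers t))))
  obtain ⟨DA, DB, hDA, -, hDAl, -, hDAc, -, hcost⟩ := amalgam2 μ hfreeA
    (sub p q t (s : Set ι)) (sub p q t (s : Set ι)ᶜ) (hA.split_nf _ _ hdisj)
    (base p q t (s : Set ι)) (sub p q t (s : Set ι)ᶜ : Set A) (fun g hg => base_sub hg)
    (fun g hg => hg)
    (fun g hg => by rw [hinfA] at hg; exact Or.inl hg)
    (fun g hg => (Subgroup.mem_inf.1 hg).2) D2 hD2 hD2f
    (fun g _ => by rw [hsupA]; trivial) (fun x g _ => hD2gen x g) η hη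
  refine ⟨DA, hDA, hDAl, hDAc, ?_⟩
  calc 1 + dcost μ DA ≤ 1 + ((dcost μ D1 + η) + η) := by
        gcongr
        exact (le_add_right le_rfl).trans (hcost.trans (by gcongr))
    _ = (1 + dcost μ D1) + η + η := by ring
    _ ≤ (dcost μ D + η) + η + η := by gcongr
    _ = dcost μ D + (η + η + η) := by ring
    _ = dcost μ D + ε := by rw [hηdef, ENNReal.add_thirds]

end Red

/-- The lower bound for the product of an everywhere free action with gaps and an action on
which the copies in `s` act trivially. -/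
theorem mid_lower_amalgam {A G X V ι : Type} [Group A] [Countable A] [Group G] [Countable G]
    [MeasurableSpace X] [StandardBorelSpace X] (μ : Measure X) [IsProbabilityMeasure μ]
    [MulAction G X] [MulAction A X] [MeasurableConstSMul A X] [SMulInvariantMeasure A X μ]
    (hfree : ∀ (g : G) (x : X), g • x = x → g = 1)
    [MeasurableSpace V] [StandardBorelSpace V] (ν : Measure V) [IsProbabilityMeasure ν]
    [MulAction G V] [MulAction A V]
    [MeasurableConstSMul G (X × V)] [SMulInvariantMeasure G (X × V) (μ.prod ν)]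
    [MeasurableConstSMul A (X × V)] [SMulInvariantMeasure A (X × V) (μ.prod ν)]
    (f : A →* G) (hf : Function.Injective f) (hactX : ∀ (a : A) (x : X), f a • x = a • x)
    (hactV : ∀ (a : A) (v : V), f a • v = a • v)
    (B : Subgroup G) {p q : ι → A} {t : A} (hA : MultiData A ι p q t)
    (hnf : NormalForm f.range B) (hinf : f.range ⊓ B = Subgroup.zpowers (f t))
    (hsup : f.range ⊔ B = ⊤)
    (hgap : ∀ i, ∀ W : Set X, MeasurableSet W → (∀ x, p i • x ∈ W ↔ x ∈ W) →
      (1 / 3 : ℝ) * (μ.real W * μ.real Wᶜ) ≤ μ.real (symmDiff W ((fun x => q i • x) ⁻¹' W)))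
    (hsmall : ∃ (m : ℕ) (A : Fin m → Set X), (∀ i, MeasurableSet (A i)) ∧
      (⋃ i, A i = Set.univ) ∧ ∀ i, μ.real (A i) ≤ 1 / 9)
    (s : Finset ι) (htriv : ∀ g ∈ sub p q t (s : Set ι), ∀ v : V, g • v = v)
    (D : G → Set (X × V)) (hD : ∀ g, MeasurableSet (D g)) (hgen : Gen (μ.prod ν) D) :
    1 + (s.card : ℝ≥0∞) * ENNReal.ofReal (1 / 81) ≤ dcost (μ.prod ν) D := by
  classical
  have hfreeA : ∀ (a : A) (x : X), a • x = x → a = 1 := by
    intro a x h
    rw [← hactX] at h
    exact hf ((hfree _ _ h).trans (map_one f).symm)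
  -- make the graph generating everywhere
  let N : Set (X × V) := toMeasurable (μ.prod ν) {y | ¬ ∀ g : G, Conn D y (g • y)}
  have hN : MeasurableSet N := measurableSet_toMeasurable _ _
  have hN' : (μ.prod ν) N = 0 := by rw [measure_toMeasurable]; exact hgen
  let D1 : G → Set (X × V) := fun g => D g ∪ N
  have hD1 : ∀ g, MeasurableSet (D1 g) := fun g => (hD g).union hN
  have hD1cost : dcost (μ.prod ν) D1 ≤ dcost (μ.prod ν) D := by
    refine ENNReal.tsum_le_tsum fun g => (measure_union_le _ _).trans ?_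
    rw [hN', add_zero]
  have hD1gen : ∀ (y : X × V) (g : G), Conn D1 y (g • y) := by
    intro y g
    by_cases hy : y ∈ N
    · exact Conn.of_mem (D := D1) (Or.inr hy)
    · have h1 : ∀ g : G, Conn D y (g • y) := by
        by_contra h
        exact hy (subset_toMeasurable _ _ h)
      exact (h1 g).mono fun h => Set.subset_union_left
  refine ENNReal.le_of_forall_pos_le_add fun ε hε _ => ?_
  obtain ⟨DA, hDA, hDAl, hDAc, hcost⟩ := reduce_copies (μ.prod ν)
    (fun g y h => hfree g y.1 (congrArg Prod.fst h)) f hf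
    (fun a y => Prod.ext (hactX a y.1) (hactV a y.2)) B hA hnf hinf hsup s D1 hD1 hD1gen
    (ε : ℝ≥0∞) (by simpa using hε)
  have hfibre : ∀ v : V, (s.card : ℝ≥0∞) * ENNReal.ofReal (1 / 81) ≤ dcost μ (fib DA v) := by
    intro v
    refine multi_copy μ hfreeA hA hgap hsmall s (fib DA v)
      (fun g => measurable_prodMk_right (hDA g)) (fun g hg => ?_) (fun x g hg => ?_)
    · obtain ⟨x, hx⟩ := hg
      exact hDAl g ⟨_, hx⟩
    · have h := conn_fib (fun g hg => htriv g (base_sub hg)) (fun g hg => htriv g (hDAl g hg))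
        (hDAc (x, v) g hg)
      exact h.2
  have hint : (s.card : ℝ≥0∞) * ENNReal.ofReal (1 / 81) ≤ dcost (μ.prod ν) DA := by
    rw [← lintegral_fib μ ν DA hDA]
    calc (s.card : ℝ≥0∞) * ENNReal.ofReal (1 / 81)
        = ∫⁻ _ : V, (s.card : ℝ≥0∞) * ENNReal.ofReal (1 / 81) ∂ν := by simp
      _ ≤ _ := lintegral_mono hfibre
  calc 1 + (s.card : ℝ≥0∞) * ENNReal.ofReal (1 / 81) ≤ 1 + dcost (μ.prod ν) DA := by gcongr
    _ ≤ dcost (μ.prod ν) D1 + ε := hcost
    _ ≤ dcost (μ.prod ν) D + ε := by gcongr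

end Vale.Agent.P189.R
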