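import Vale.Agent.P189.H741.Main0

set_option autoImplicit false

open MeasureTheory
open scoped ENNReal Pointwise

namespace Vale.Agent.P189.R

open Vale.Agent.P189.M

/-- Connectivity of generators at every point of an invariant set. -/
theorem conn_closure_on {G X : Type} [Group G] [MulAction G X] (D : G → Set X) (P : X → Prop)
    (hP : ∀ x, P x → ∀ g : G, P (g • x)) (S : Set G)
    (h : ∀ s ∈ S, ∀ x : X, P x → Conn D x (s • x))
    {g : G} (hg : g ∈ Subgroup.closure S) (x : X) (hx : P x) : Conn D x (g • x) := by
  induction hg using Subgroup.closure_induction generalizing x with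
  | mem s hs => exact h s hs x hx
  | one => rw [one_smul]; exact Conn.refl _ _
  | mul a b _ _ iha ihb =>
    rw [mul_smul]
    exact (ihb x hx).trans (iha _ (hP x hx b))
  | inv a _ iha =>
    have := iha (a⁻¹ • x) (hP x hx a⁻¹)
    rw [smul_inv_smul] at this
    exact this.symm

/-- Push a labelled graph forward along a homomorphism. -/
def pushD {A G X : Type} [Group A] [Group G] (f : A →* G) (D : A → Set X) (g : G) : Set X :=
  ⋃ a : A, {x | f a = g ∧ x ∈ D a}

theorem mem_pushD {A G X : Type} [Group A] [Group G] (f : A →* G) (D : A → Set X) {a : A} {x : X}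
    (h : x ∈ D a) : x ∈ pushD f D (f a) := Set.mem_iUnion.2 ⟨a, rfl, h⟩

theorem measurable_pushD {A G X : Type} [Group A] [Group G] [Countable A] [MeasurableSpace X]
    (f : A →* G) (D : A → Set X) (hD : ∀ a, MeasurableSet (D a)) (g : G) :
    MeasurableSet (pushD f D g) :=
  MeasurableSet.iUnion fun a => (MeasurableSet.const _).inter (hD a)

theorem dcost_pushD {A G X : Type} [Group A] [Group G] [Countable A] [MeasurableSpace X]
    (μ : Measure X) (f : A →* G) (D : A → Set X) : dcost μ (pushD f D) ≤ dcost μ D := by
  classical
  unfold dcost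
  calc ∑' g, μ (pushD f D g) ≤ ∑' g, ∑' a, μ {x | f a = g ∧ x ∈ D a} :=
        ENNReal.tsum_le_tsum fun g => measure_iUnion_le _
    _ = ∑' a, ∑' g, μ {x | f a = g ∧ x ∈ D a} := ENNReal.tsum_comm
    _ = ∑' a, μ (D a) := by
      refine tsum_congr fun a => ?_
      rw [tsum_eq_single (f a)]
      · congr 1
        ext x
        simp
      · intro g hg
        have : {x | f a = g ∧ x ∈ D a} = (∅ : Set X) := by
          ext x
          simp only [Set.mem_ofPred_eq, Set.mem_empty_iff_false, iff_false, not_and]
          intro h
          exact absurd h.symm hg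
        rw [this, measure_empty]

theorem conn_pushD {A G X : Type} [Group A] [Group G] [MulAction G X] [MulAction A X]
    (f : A →* G) (hact : ∀ (a : A) (x : X), f a • x = a • x) (D : A → Set X) {x y : X}
    (h : Conn D x y) : Conn (pushD f D) x y := by
  refine Relation.EqvGen.mono ?_ _ _ h
  rintro u v ⟨a, ha, rfl⟩
  exact ⟨f a, mem_pushD f D ha, (hact a u).symm⟩

theorem infinite_zpowers {G : Type} [Group G] {t : G} (ht : ∀ n : ℕ, t ^ n = 1 → n = 0) :
    Infinite (Subgroup.zpowers t) := by
  refine Infinite.of_injective (fun n : ℕ => (⟨t ^ n, Subgroup.npow_mem_zpowers t n⟩ :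
    Subgroup.zpowers t)) ?_
  intro m n h
  have h' : t ^ m = t ^ n := congrArg Subtype.val h
  rcases le_total m n with hmn | hmn
  · have : t ^ (n - m) = 1 := by
      rw [pow_sub t hmn, ← h', mul_inv_cancel]
    have := ht _ this
    omega
  · have : t ^ (m - n) = 1 := by
      rw [pow_sub t hmn, ← h', mul_inv_cancel]
    have := ht _ this
    omega

/-- If `G` is generated by the images of `A` and `H`, and some element of infinite order of the
image of `A` commutes with the image of `H`, then every free action of `G` costs at most as much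
as its restriction to `A`. -/
theorem actionCost_le_of_commute {A G H X : Type} [Group A] [Group G] [Group H] [Countable A]
    [Countable G] [Countable H] [MeasurableSpace X] [StandardBorelSpace X] (μ : Measure X)
    [IsProbabilityMeasure μ] [MulAction G X] [MeasurableConstSMul G X]
    [SMulInvariantMeasure G X μ] [MulAction A X] [MeasurableConstSMul A X]
    (hfree : EssentiallyFree G X μ)
    (f : A →* G) (hact : ∀ (a : A) (x : X), f a • x = a • x) (j : H →* G)
    (htop : Subgroup.closure ((f.range : Set G) ∪ (j.range : Set G)) = ⊤)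
    (t : A) (ht : ∀ n : ℕ, f t ^ n = 1 → n = 0) (hcomm : ∀ h : H, f t * j h = j h * f t) :
    actionCost G X μ ≤ actionCost A X μ := by
  classical
  refine le_actionCost_of_forall (Γ := A) μ fun D hD hgen => ?_
  refine ENNReal.le_of_forall_pos_le_add fun ε hε _ => ?_
  obtain ⟨ε', hε', hsum⟩ := ENNReal.exists_pos_sum_of_countable'
    (ε := (ε : ℝ≥0∞)) (by simpa using hε.ne') H
  have := infinite_zpowers ht
  have hfreeT : EssentiallyFree (Subgroup.zpowers (f t)) X μ := by
    intro g hg
    exact hfree (g : G) (fun h => hg (Subtype.ext h))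
  choose E hE hμE hEsec using fun h : H =>
    exists_small_section (Γ := Subgroup.zpowers (f t)) μ hfreeT (hε' h)
  let D' : G → Set X := fun g => pushD f D g ∪ pushD j E g
  have hD' : ∀ g, MeasurableSet (D' g) := fun g =>
    (measurable_pushD f D hD g).union (measurable_pushD j E hE g)
  have hcost : dcost μ D' ≤ dcost μ D + ε := by
    calc dcost μ D' ≤ dcost μ (pushD f D) + dcost μ (pushD j E) := by
          unfold dcost
          rw [← ENNReal.tsum_add]
          exact ENNReal.tsum_le_tsum fun g => measure_union_le _ _
      _ ≤ dcost μ D + dcost μ E := add_le_add (dcost_pushD μ f D) (dcost_pushD μ j E)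
      _ ≤ dcost μ D + ε := by
        gcongr
        exact (ENNReal.tsum_le_tsum fun h => hμE h).trans hsum.le
  refine le_trans (actionCost_le_dcost μ D' hD' ?_) hcost
  have hae : ∀ᵐ x ∂μ, ∀ g : G, ∀ a : A, Conn D (g • x) (a • g • x) := by
    rw [ae_all_iff]
    intro g
    exact (measurePreserving_smul g μ).quasiMeasurePreserving.ae hgen
  filter_upwards [hae] with x hx g
  refine conn_closure_on D' (fun y => ∀ g : G, ∀ a : A, Conn D (g • y) (a • g • y)) ?_ _ ?_
    (g := g) (by rw [htop]; trivial) x hx
  · intro y hy g g' a
    have := hy (g' * g) a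
    rw [mul_smul] at this
    exact this
  · rintro s (⟨a, rfl⟩ | ⟨h, rfl⟩) y hy
    · have h1 := hy 1 a
      rw [one_smul] at h1
      rw [hact]
      exact Conn.mono (fun g => Set.subset_union_left) (conn_pushD f hact D h1)
    · obtain ⟨⟨_, n, rfl⟩, hn⟩ := hEsec h y
      have hn' : (f (t ^ n)) • y ∈ E h := by
        rw [map_zpow]
        exact hn
      -- moving along `t ^ n`
      have hmove : ∀ g : G, Conn D' (g • y) (f (t ^ n) • g • y) := by
        intro g
        rw [hact]
        exact Conn.mono (fun g => Set.subset_union_left)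
          (conn_pushD f hact D (hy g (t ^ n)))
      have h1 := hmove 1
      rw [one_smul] at h1
      have h2 : Conn D' (f (t ^ n) • y) (j h • f (t ^ n) • y) :=
        Conn.of_mem (D := D') (Or.inr (mem_pushD j E hn'))
      have hc : Commute (f t) (j h) := hcomm h
      have h3 : j h • f (t ^ n) • y = f (t ^ n) • j h • y := by
        rw [← mul_smul, ← mul_smul, map_zpow, (hc.zpow_left n).eq]
      rw [h3] at h2
      exact h1.trans (h2.trans (hmove (j h)).symm)

end Vale.Agent.P189.R
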