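import Vale.Agent.P189.H741.Main
import Vale.Agent.P189.H650.Up
import Vale.Agent.P189.H650.Low
import Vale.Agent.P189.H650.Grp

set_option autoImplicit false

open MeasureTheory
open scoped ENNReal Pointwise symmDiff

namespace Vale.Agent.P189.R

open Vale.Agent.P189.M

/-- The Bernoulli action has a conull part on which the group acts freely everywhere. -/
theorem exists_model_of_color (G ι : Type) [Group G] [Countable G] (p q : ι → G)
    (hp3 : ∀ i, p i ^ 3 = 1) (hq3 : ∀ i, q i ^ 3 = 1)
    (hcol : ∀ i, ∃ TP TN : Set G, Disjoint TP TN ∧ TwoOfThree (p i) TP ∧ TwoOfThree (q i) TN) :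
    ∃ (X : Type) (_ : MeasurableSpace X) (_ : StandardBorelSpace X) (μ : Measure X)
      (_ : IsProbabilityMeasure μ) (_ : MulAction G X) (_ : MeasurableConstSMul G X)
      (_ : SMulInvariantMeasure G X μ), (∀ (g : G) (x : X), g • x = x → g = 1) ∧
      (∀ i, ∀ W : Set X, MeasurableSet W → (∀ x, p i • x ∈ W ↔ x ∈ W) →
        (1 / 3 : ℝ) * (μ.real W * μ.real Wᶜ) ≤
          μ.real (symmDiff W ((fun x => q i • x) ⁻¹' W))) ∧
      (∃ (m : ℕ) (A : Fin m → Set X), (∀ i, MeasurableSet (A i)) ∧
        (⋃ i, A i = Set.univ) ∧ ∀ i, μ.real (A i) ≤ 1 / 9) := by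
  classical
  set μ := bernMeasure G with hμ
  have hfree := bern_free G
  -- the bad null set
  let N0 : Set (Bern G) := ⋃ g : G, ⋃ _ : g ≠ 1, {x | g • x = x}
  have hN0 : μ N0 = 0 :=
    measure_iUnion_null fun g => measure_iUnion_null fun hg => hfree g hg
  let N : Set (Bern G) := toMeasurable μ N0
  have hN : MeasurableSet N := measurableSet_toMeasurable _ _
  have hN' : μ N = 0 := by rw [measure_toMeasurable, hN0]
  let S : SubMulAction G (Bern G) :=
    { carrier := {x | ∀ g : G, g • x ∉ N}
      smul_mem' := by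
        intro h x hx g
        rw [← mul_smul]
        exact hx _ }
  have hSm : MeasurableSet (S : Set (Bern G)) := by
    have : (S : Set (Bern G)) = ⋂ g : G, (fun x => g • x) ⁻¹' Nᶜ := by
      ext x
      rw [Set.mem_iInter]
      exact Iff.rfl
    rw [this]
    exact MeasurableSet.iInter fun g => hN.compl.preimage (measurable_const_smul g)
  have hSc : μ (S : Set (Bern G))ᶜ = 0 := by
    have : (S : Set (Bern G))ᶜ = ⋃ g : G, (fun x => g • x) ⁻¹' N := by
      ext x
      rw [Set.mem_iUnion]
      have h1 : x ∈ (S : Set (Bern G))ᶜ ↔ ¬ ∀ g : G, g • x ∉ N := Iff.rfl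
      rw [h1]
      push Not
      exact Iff.rfl
    rw [this]
    refine measure_iUnion_null fun g => ?_
    rw [measure_preimage_smul]
    exact hN'
  have hSN0 : ∀ x ∈ S, x ∉ N0 := by
    intro x hx hx0
    have h1 := hx 1
    rw [one_smul] at h1
    exact h1 (subset_toMeasurable _ _ hx0)
  have hSfree : ∀ x ∈ S, ∀ g : G, g • x = x → g = 1 := by
    intro x hx g hg
    by_contra h
    exact hSN0 x hx (Set.mem_iUnion.2 ⟨g, Set.mem_iUnion.2 ⟨h, hg⟩⟩)
  -- the measure on the subtype
  have : StandardBorelSpace S := hSm.standardBorel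
  let ν : Measure S := μ.comap Subtype.val
  have hemb : MeasurableEmbedding (Subtype.val : S → Bern G) := MeasurableEmbedding.subtype_coe hSm
  have hν : ∀ T : Set S, ν T = μ (Subtype.val '' T) := fun T => hemb.comap_apply _ _
  have hνp : ∀ T : Set (Bern G), ν (Subtype.val ⁻¹' T) = μ T := by
    intro T
    rw [hν]
    have h0 : (Subtype.val : S → Bern G) '' (Subtype.val ⁻¹' T) = (S : Set (Bern G)) ∩ T :=
      Subtype.image_preimage_coe (S : Set (Bern G)) T
    rw [h0]
    refine le_antisymm (measure_mono Set.inter_subset_right) ?_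
    calc μ T ≤ μ (((S : Set (Bern G)) ∩ T) ∪ (S : Set (Bern G))ᶜ) := by
          refine measure_mono fun x hx => ?_
          by_cases h : x ∈ (S : Set (Bern G))
          · exact Or.inl ⟨h, hx⟩
          · exact Or.inr h
      _ ≤ μ ((S : Set (Bern G)) ∩ T) + μ (S : Set (Bern G))ᶜ := measure_union_le _ _
      _ = _ := by rw [hSc, add_zero]
  have hνr : ∀ T : Set (Bern G), ν.real (Subtype.val ⁻¹' T) = μ.real T := fun T => by
    simp only [measureReal_def, hνp]
  have : IsProbabilityMeasure ν := by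
    constructor
    have := hνp Set.univ
    rw [Set.preimage_univ] at this
    rw [this, measure_univ]
  have hmeas : MeasurableConstSMul G S := by
    constructor
    intro g
    exact ((measurable_const_smul g).comp measurable_subtype_coe).subtype_mk
  have hinv : SMulInvariantMeasure G S ν := by
    constructor
    intro g T hT
    obtain ⟨T', hT', rfl⟩ := hT
    have h1 : (fun x : S => g • x) ⁻¹' (Subtype.val ⁻¹' T') =
        Subtype.val ⁻¹' ((fun x : Bern G => g • x) ⁻¹' T') := rfl
    rw [h1, hνp, hνp, measure_preimage_smul]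
  have hgap : ∀ i, ∀ W : Set S, MeasurableSet W → (∀ x, p i • x ∈ W ↔ x ∈ W) →
      (1 / 3 : ℝ) * (ν.real W * ν.real Wᶜ) ≤
        ν.real (symmDiff W ((fun x => q i • x) ⁻¹' W)) := by
    intro i W hW hpW
    obtain ⟨TP, TN, hdisj, hTP, hTN⟩ := hcol i
    let W' : Set (Bern G) := Subtype.val '' W
    have hW' : MeasurableSet W' := hemb.measurableSet_image.2 hW
    have hWW' : W = Subtype.val ⁻¹' W' := (Set.preimage_image_eq W Subtype.val_injective).symm
    have hpW' : ∀ x, p i • x ∈ W' ↔ x ∈ W' := by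
      intro x
      constructor
      · rintro ⟨y, hy, hyx⟩
        refine ⟨(p i)⁻¹ • y, ?_, ?_⟩
        · rw [← hpW, smul_inv_smul]
          exact hy
        · show (p i)⁻¹ • (y : Bern G) = x
          rw [hyx, inv_smul_smul]
      · rintro ⟨y, hy, rfl⟩
        exact ⟨p i • y, (hpW y).2 hy, rfl⟩
    have h := bern_gap (p i) (q i) (hp3 i) (hq3 i) TP TN hdisj hTP hTN W' hW' hpW'
    have h1 : ν.real W = μ.real W' := by
      conv_lhs => rw [hWW']
      exact hνr _
    have h2 : ν.real Wᶜ = μ.real W'ᶜ := by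
      conv_lhs => rw [hWW', ← Set.preimage_compl]
      exact hνr _
    have h3 : ν.real (symmDiff W ((fun x => q i • x) ⁻¹' W)) =
        μ.real (symmDiff W' ((fun x => q i • x) ⁻¹' W')) := by
      have h4 : symmDiff W ((fun x => q i • x) ⁻¹' W) =
          Subtype.val ⁻¹' (symmDiff W' ((fun x => q i • x) ⁻¹' W')) := by
        conv_lhs => rw [hWW']
        rfl
      rw [h4]
      exact hνr _
    rw [h1, h2, h3]
    exact h
  have hsmall : ∃ (m : ℕ) (A : Fin m → Set S), (∀ i, MeasurableSet (A i)) ∧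
      (⋃ i, A i = Set.univ) ∧ ∀ i, ν.real (A i) ≤ 1 / 9 := by
    obtain ⟨m, A, h1, h2, h3⟩ := Vale.Agent.P189.bern_small G 8
    refine ⟨m, fun i => Subtype.val ⁻¹' A i, fun i => (h1 i).preimage measurable_subtype_coe,
      ?_, fun i => ?_⟩
    · rw [← Set.preimage_iUnion, h2, Set.preimage_univ]
    · rw [hνr]
      refine (h3 i).trans ?_
      norm_num
  exact ⟨S, inferInstance, hSm.standardBorel, ν, this, inferInstance, hmeas, hinv,
    fun g x hx => hSfree x x.2 g (congrArg Subtype.val hx), hgap, hsmall⟩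


theorem twoOfThree_comap {A G : Type} [Group A] [Group G] (ρ : G →* A) {g : G} {S : Set A}
    (h : TwoOfThree (ρ g) S) : TwoOfThree g (ρ ⁻¹' S) := by
  intro x
  have := h (ρ x)
  simpa [Set.mem_preimage, smul_eq_mul, map_mul] using this

section Act

variable {A G : Type} [Group A] [Group G]

theorem compHom_meas (ρ : G →* A) (V : Type) [MeasurableSpace V] [MulAction A V]
    [MeasurableConstSMul A V] :
    letI : MulAction G V := MulAction.compHom V ρ
    MeasurableConstSMul G V := by
  letI : MulAction G V := MulAction.compHom V ρ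
  exact ⟨fun g => measurable_const_smul (ρ g)⟩

theorem compHom_inv (ρ : G →* A) (V : Type) [MeasurableSpace V] [MulAction A V]
    (ν : Measure V) [SMulInvariantMeasure A V ν] :
    letI : MulAction G V := MulAction.compHom V ρ
    SMulInvariantMeasure G V ν := by
  letI : MulAction G V := MulAction.compHom V ρ
  exact ⟨fun g s hs => SMulInvariantMeasure.measure_preimage_smul (ρ g) hs⟩

end Act

section Main

variable {ι H G : Type} [Countable ι] [Group H] [Countable H] [Group G]
  {f : Gam ι →* G} {j : H →* G}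

theorem amal_infinite (h : Amal (gT : Gam ι) f j) : Infinite G := by
  have := gam_infinite ι
  exact Infinite.of_injective f h.finj

theorem amal_tinf (h : Amal (gT : Gam ι) f j) (n : ℕ) (hn : f gT ^ n = 1) : n = 0 := by
  refine (multiData ι).tinf n (h.finj ?_)
  rw [map_pow, hn, map_one]

theorem amal_model (h : Amal (gT : Gam ι) f j) :
    ∃ (X : Type) (_ : MeasurableSpace X) (_ : StandardBorelSpace X) (μ : Measure X)
      (_ : IsProbabilityMeasure μ) (_ : MulAction G X) (_ : MeasurableConstSMul G X)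
      (_ : SMulInvariantMeasure G X μ), (∀ (g : G) (x : X), g • x = x → g = 1) ∧
      (∀ i : ι, ∀ W : Set X, MeasurableSet W → (∀ x, f (gP i) • x ∈ W ↔ x ∈ W) →
        (1 / 3 : ℝ) * (μ.real W * μ.real Wᶜ) ≤
          μ.real (symmDiff W ((fun x => f (gQ i) • x) ⁻¹' W))) ∧
      (∃ (m : ℕ) (A : Fin m → Set X), (∀ i, MeasurableSet (A i)) ∧
        (⋃ i, A i = Set.univ) ∧ ∀ i, μ.real (A i) ≤ 1 / 9) := by
  have hA := multiData ι
  have := gam_countable ι
  have hcG : Countable G := h.countable
  obtain ⟨ρ, hρ⟩ := h.retrA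
  have hρ' : ∀ a, ρ (f a) = a := fun a => DFunLike.congr_fun hρ a
  refine exists_model_of_color G ι (fun i => f (gP i)) (fun i => f (gQ i)) ?_ ?_ ?_
  · intro i; rw [← map_pow, hA.p3, map_one]
  · intro i; rw [← map_pow, hA.q3, map_one]
  · intro i
    obtain ⟨TP, TN, hd, hP, hN⟩ := hA.color i
    refine ⟨ρ ⁻¹' TP, ρ ⁻¹' TN, hd.preimage ρ, twoOfThree_comap ρ ?_, twoOfThree_comap ρ ?_⟩
    · rw [hρ']; exact hP
    · rw [hρ']; exact hN

/-- Free actions of finite cost at least `1 + |s| / 81` (and at most `1 + |s|`). -/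
theorem amal_attains_mid (h : Amal (gT : Gam ι) f j) (s : Finset ι) :
    ∃ c : ℝ≥0∞, 1 + (s.card : ℝ≥0∞) / 81 ≤ c ∧ c ≤ 1 + (s.card : ℝ≥0∞) ∧ Attains G c := by
  have hA := multiData ι
  have := gam_countable ι
  have hcG : Countable G := h.countable
  obtain ⟨B, hnf, hinf, hsup⟩ := h.split
  obtain ⟨ρ, hρ⟩ := h.retrA
  have hρ' : ∀ a, ρ (f a) = a := fun a => DFunLike.congr_fun hρ a
  obtain ⟨V, _, _, ν, _, _, hmV, hiV, htriv, hup⟩ := midUpperSt (Gam ι) ι gP gQ gT hA
    (fun K _ a b ha hb => gam_lift ι K a b ha hb) s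
  obtain ⟨X, _, _, μ, _, _, hmX, hiX, hfree, hgap, hsmall⟩ := amal_model h
  letI : MulAction G V := MulAction.compHom V ρ
  letI : MulAction (Gam ι) X := MulAction.compHom X f
  have hmGV : MeasurableConstSMul G V := compHom_meas ρ V
  have hiGV : SMulInvariantMeasure G V ν := compHom_inv ρ V ν
  have hmAX : MeasurableConstSMul (Gam ι) X := compHom_meas f X
  have hiAX : SMulInvariantMeasure (Gam ι) X μ := compHom_inv f X μ
  have hmY : MeasurableConstSMul G (X × V) := UpAux.prod_meas
  have hiY : SMulInvariantMeasure G (X × V) (μ.prod ν) := UpAux.prod_inv _ _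
  have hmYA : MeasurableConstSMul (Gam ι) (X × V) := UpAux.prod_meas
  have hiYA : SMulInvariantMeasure (Gam ι) (X × V) (μ.prod ν) := UpAux.prod_inv _ _
  have hactX : ∀ (a : Gam ι) (x : X), f a • x = a • x := fun a x => rfl
  have hactV : ∀ (a : Gam ι) (v : V), f a • v = a • v := by
    intro a v
    show ρ (f a) • v = a • v
    rw [hρ']
  have hfreeX : EssentiallyFree G X μ := by
    intro g hg
    have : {x : X | g • x = x} = ∅ :=
      Set.eq_empty_of_forall_notMem fun x hx => hg (hfree g x hx)
    rw [this, measure_empty]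
  have hfreeAX : EssentiallyFree (Gam ι) X μ := by
    intro a ha
    exact hfreeX (f a) (fun h' => ha (h.finj (h'.trans (map_one f).symm)))
  have hfreeY : EssentiallyFree G (X × V) (μ.prod ν) := prod_essentiallyFree _ _ hfreeX
  refine ⟨actionCost G (X × V) (μ.prod ν), ?_, ?_, X × V, inferInstance, inferInstance,
    μ.prod ν, inferInstance, inferInstance, hmY, hiY, hfreeY, rfl⟩
  · have h81 : ENNReal.ofReal (1 / 81) = (81 : ℝ≥0∞)⁻¹ := by
      rw [one_div, ENNReal.ofReal_inv_of_pos (by norm_num)]
      norm_num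
    rw [div_eq_mul_inv, ← h81]
    exact le_actionCost_of_forall _ fun D hD hgen =>
      mid_lower_amalgam μ hfree ν f h.finj hactX hactV B hA hnf hinf hsup hgap hsmall s htriv
        D hD hgen
  · refine le_trans ?_ (hup X μ hfreeAX)
    exact actionCost_le_of_commute (μ.prod ν) hfreeY f
      (fun a y => Prod.ext (hactX a y.1) (hactV a y.2)) j h.top gT (amal_tinf h) h.comm

theorem amal_attains_one (h : Amal (gT : Gam ι) f j) : Attains G 1 := by
  have := gam_countable ι
  have hcG : Countable G := h.countable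
  have hiG := amal_infinite h
  obtain ⟨c, -, h2, h3⟩ := amal_attains_mid h ∅
  have h1 : 1 ≤ c := one_le_of_attains h3
  have : c = 1 := le_antisymm (by simpa using h2) h1
  rwa [this] at h3

/-- Every cost in `[1, 1 + |s| / 81]` is attained. -/
theorem amal_attains_Icc (h : Amal (gT : Gam ι) f j) (s : Finset ι) {c : ℝ≥0∞} (h1 : 1 ≤ c)
    (h2 : c ≤ 1 + (s.card : ℝ≥0∞) / 81) : Attains G c := by
  have := gam_countable ι
  have hcG : Countable G := h.countable
  obtain ⟨d, hd1, hd2, hd3⟩ := amal_attains_mid h s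
  refine attains_Icc convSt (amal_attains_one h) hd3 ?_ h1 (h2.trans hd1)
  exact (hd2.trans_lt (ENNReal.add_lt_top.2 ⟨by simp, by simp⟩)).ne

end Main

/-- With infinitely many copies the Bernoulli action has infinite cost. -/
theorem amal_attains_top {H G : Type} [Group H] [Countable H] [Group G]
    {f : Gam ℕ →* G} {j : H →* G} (h : Amal (gT : Gam ℕ) f j) : Attains G ⊤ := by
  have hA := multiData ℕ
  have := gam_countable ℕ
  have hcG : Countable G := h.countable
  obtain ⟨B, hnf, hinf, hsup⟩ := h.split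
  obtain ⟨X, _, _, μ, _, _, hmX, hiX, hfree, hgap, hsmall⟩ := amal_model h
  let _ : MulAction G Unit :=
    { smul := fun _ _ => (), one_smul := fun _ => rfl, mul_smul := fun _ _ _ => rfl }
  let _ : MulAction (Gam ℕ) Unit :=
    { smul := fun _ _ => (), one_smul := fun _ => rfl, mul_smul := fun _ _ _ => rfl }
  letI : MulAction (Gam ℕ) X := MulAction.compHom X f
  have hmAX : MeasurableConstSMul (Gam ℕ) X := compHom_meas f X
  have hiAX : SMulInvariantMeasure (Gam ℕ) X μ := compHom_inv f X μ
  let ν : Measure Unit := Measure.dirac ()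
  have hmGV : MeasurableConstSMul G Unit := ⟨fun g => measurable_const⟩
  have hmAV : MeasurableConstSMul (Gam ℕ) Unit := ⟨fun g => measurable_const⟩
  have hiGV : SMulInvariantMeasure G Unit ν := ⟨fun g s _ => rfl⟩
  have hiAV : SMulInvariantMeasure (Gam ℕ) Unit ν := ⟨fun g s _ => rfl⟩
  have hmY : MeasurableConstSMul G (X × Unit) := UpAux.prod_meas
  have hiY : SMulInvariantMeasure G (X × Unit) (μ.prod ν) := UpAux.prod_inv _ _
  have hmYA : MeasurableConstSMul (Gam ℕ) (X × Unit) := UpAux.prod_meas
  have hiYA : SMulInvariantMeasure (Gam ℕ) (X × Unit) (μ.prod ν) := UpAux.prod_inv _ _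
  have hfreeX : EssentiallyFree G X μ := by
    intro g hg
    have : {x : X | g • x = x} = ∅ :=
      Set.eq_empty_of_forall_notMem fun x hx => hg (hfree g x hx)
    rw [this, measure_empty]
  have hfreeY : EssentiallyFree G (X × Unit) (μ.prod ν) := prod_essentiallyFree _ _ hfreeX
  refine ⟨X × Unit, inferInstance, inferInstance, μ.prod ν, inferInstance, inferInstance, hmY,
    hiY, hfreeY, ?_⟩
  have h81 : ENNReal.ofReal (1 / 81) = (81 : ℝ≥0∞)⁻¹ := by
    rw [one_div, ENNReal.ofReal_inv_of_pos (by norm_num)]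
    norm_num
  rw [eq_top_iff]
  refine le_of_forall_lt fun a ha => ?_
  have ha' : a ≠ ⊤ := ha.ne
  obtain ⟨n, hn⟩ := ENNReal.exists_nat_gt (ENNReal.mul_ne_top ha' (by simp : (81 : ℝ≥0∞) ≠ ⊤))
  have h1 : a < (n : ℝ≥0∞) * ENNReal.ofReal (1 / 81) := by
    rw [h81, ← div_eq_mul_inv, ENNReal.lt_div_iff_mul_lt (Or.inl (by simp)) (Or.inl (by simp))]
    exact hn
  refine h1.trans_le (le_trans ?_ (le_actionCost_of_forall (μ.prod ν)
    fun D hD hgen => mid_lower_amalgam μ hfree ν f h.finj (fun a x => rfl) (fun a v => rfl) B hA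
      hnf hinf hsup hgap hsmall (Finset.range n) (fun _ _ _ => rfl) D hD hgen))
  rw [Finset.card_range]
  exact le_add_self

/-- With infinitely many copies every cost allowed by Levitt's bound is attained. -/
theorem amal_nat {H G : Type} [Group H] [Countable H] [Group G]
    {f : Gam ℕ →* G} {j : H →* G} (h : Amal (gT : Gam ℕ) f j) (c : ℝ≥0∞) :
    Attains G c ↔ 1 ≤ c := by
  have := gam_countable ℕ
  have hcG : Countable G := h.countable
  have hiG := amal_infinite h
  refine ⟨one_le_of_attains, fun hc => ?_⟩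
  rcases eq_or_ne c ⊤ with rfl | hct
  · exact amal_attains_top h
  · obtain ⟨n, hn⟩ := ENNReal.exists_nat_gt (ENNReal.mul_ne_top hct (by simp : (81 : ℝ≥0∞) ≠ ⊤))
    refine amal_attains_Icc h (Finset.range n) hc ?_
    rw [Finset.card_range]
    refine le_trans ?_ le_add_self
    rw [ENNReal.le_div_iff_mul_le (Or.inl (by simp)) (Or.inl (by simp))]
    exact hn.le

/-- Every countable group is a retract of a countable group for which the set of costs of the
free actions is `[1, ∞]`. -/
theorem retract_nat (H : Type) [Group H] [Countable H] :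
    ∃ (G : Type) (_ : Group G) (i : H →* G) (r : G →* H), Countable G ∧
      r.comp i = MonoidHom.id H ∧ ∀ c : ℝ≥0∞, Attains G c ↔ 1 ≤ c := by
  have := gam_countable ℕ
  obtain ⟨G, _, f, j, h⟩ := exists_amal (Gam ℕ) H gT (multiData ℕ).tinf
  obtain ⟨r, hr⟩ := h.retrH
  exact ⟨G, inferInstance, j, r, h.countable, hr, amal_nat h⟩

/-- Finitely generated and finitely presented versions. -/
theorem retract_fin (H : Type) [Group H] [Countable H] (K : ℕ) :
    ∃ (G : Type) (_ : Group G) (i : H →* G) (r : G →* H), Countable G ∧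
      r.comp i = MonoidHom.id H ∧ (Group.FG H → Group.FG G) ∧
      (Group.IsFinitelyPresented H → Group.IsFinitelyPresented G) ∧
      ∀ c : ℝ≥0∞, 1 ≤ c → c ≤ K → Attains G c := by
  have := gam_countable (Fin (81 * K))
  obtain ⟨G, _, f, j, h⟩ := exists_amal (Gam (Fin (81 * K))) H gT (multiData _).tinf
  obtain ⟨r, hr⟩ := h.retrH
  refine ⟨G, inferInstance, j, r, h.countable, hr, fun hH => h.fg (gam_fg _) hH, fun hH => ?_,
    fun c h1 h2 => amal_attains_Icc h Finset.univ h1 (h2.trans ?_)⟩
  · have hfin : Finite (rels (Fin (81 * K))) := (rels_finite _).to_subtype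
    exact h.fp inferInstance hH
  · rw [Finset.card_univ, Fintype.card_fin]
    refine le_trans ?_ le_add_self
    rw [ENNReal.le_div_iff_mul_le (Or.inl (by simp)) (Or.inl (by simp))]
    push_cast
    rw [mul_comm]

end Vale.Agent.P189.R
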